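import Crest.Agent.N337.Asy.Basic

-- ▼ part N337/Asy/One
section

/-!
# Row 337: `asy1 : Asy1Stmt` (helper37)
-/

set_option autoImplicit false

namespace Crest.Agent.N337.Asy

open Crest.MathPhysics.SpinModel Filter Topology MeasureTheory Real Matrix

variable {d : ℕ}

lemma rescale (f : (Fin d → ℝ) → ℝ) {r : ℝ} (hr : 0 ≤ r) :
    r ^ d * ∫ p in cube d, f p = ∫ q, (cube d).indicator f (r⁻¹ • q) := by
  rw [Measure.integral_comp_inv_smul_of_nonneg volume _ hr, integral_indicator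
    (measurableSet_cube d), Module.finrank_fin_fun, smul_eq_mul]

lemma eventually_abs_le (x : ℝ) {a : ℝ} (ha : 0 < a) : ∀ᶠ r : ℝ in atTop, |r⁻¹ * x| ≤ a := by
  have h := (tendsto_inv_atTop_zero.mul_const x).abs
  rw [zero_mul, abs_zero] at h
  exact h.eventually_le_const ha

lemma tendsto_sq_one_sub_cos (x : ℝ) :
    Tendsto (fun r : ℝ => r ^ 2 * (1 - cos (r⁻¹ * x))) atTop (𝓝 (x ^ 2 / 2)) := by
  rw [tendsto_iff_norm_sub_tendsto_zero]
  have h := (tendsto_inv_atTop_zero (𝕜 := ℝ)).pow 2 |>.const_mul (x ^ 4 * (5 / 96))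
  rw [zero_pow two_ne_zero, mul_zero] at h
  refine squeeze_zero' (Eventually.of_forall fun _ => norm_nonneg _) ?_ h
  filter_upwards [eventually_abs_le x one_pos, eventually_gt_atTop 0] with r h1 hr
  have h2 := cos_bound h1
  have h3 : r ^ 2 * (1 - cos (r⁻¹ * x)) - x ^ 2 / 2 =
      -(r ^ 2 * (cos (r⁻¹ * x) - (1 - (r⁻¹ * x) ^ 2 / 2))) := by field_simp; ring
  rw [h3, norm_neg, norm_mul, norm_of_nonneg (by positivity), norm_eq_abs]
  calc _ ≤ r ^ 2 * (|r⁻¹ * x| ^ 4 * (5 / 96)) := by gcongr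
    _ = _ := by
      rw [show |r⁻¹ * x| ^ 4 = (r⁻¹ * x) ^ 4 from Even.pow_abs (by decide) _]
      field_simp

lemma eventually_mem_cube (q : Fin d → ℝ) : ∀ᶠ r : ℝ in atTop, r⁻¹ • q ∈ cube d := by
  have h := eventually_all.2 fun a => eventually_abs_le (q a) pi_pos
  filter_upwards [h] with r hr a _
  exact abs_le.1 (hr a)

/-- the stiffness matrix -/
noncomputable def DM (n : ℕ) (J : (Fin d → ℤ) → ℝ) : Matrix (Fin d) (Fin d) ℝ :=
  Matrix.of fun a b => spinVal n / 2 * ∑ᶠ z : Fin d → ℤ, J z * ((z a : ℝ) * (z b : ℝ))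

lemma quad_eq (n : ℕ) {J : (Fin d → ℤ) → ℝ} (hJ : Coup J) (q : Fin d → ℝ) :
    q ⬝ᵥ DM n J *ᵥ q =
      spinVal n * ∑ z ∈ hJ.fin.toFinset, J z * ((∑ a, q a * (z a : ℝ)) ^ 2 / 2) := by
  simp only [dotProduct, mulVec, DM, of_apply, finsum_eq hJ, sq,
    Finset.mul_sum, Finset.sum_mul, Finset.sum_div]
  simp only [Finset.sum_comm (t := hJ.fin.toFinset)]
  refine Finset.sum_congr rfl fun z _ => Finset.sum_congr rfl fun a _ =>
    Finset.sum_congr rfl fun b _ => by ring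

lemma tendsto_eps (n : ℕ) {J : (Fin d → ℤ) → ℝ} (hJ : Coup J) (q : Fin d → ℝ) :
    Tendsto (fun r : ℝ => r ^ 2 * eps n J (r⁻¹ • q)) atTop (𝓝 (q ⬝ᵥ DM n J *ᵥ q)) := by
  rw [quad_eq n hJ]
  refine ((tendsto_finsetSum _ fun z _ => (tendsto_sq_one_sub_cos
    (∑ a, q a * (z a : ℝ))).const_mul (J z)).const_mul (spinVal n)).congr fun r => ?_
  rw [eps_eq n hJ, mul_left_comm, Finset.mul_sum _ _ (r ^ 2)]
  congr 1
  refine Finset.sum_congr rfl fun z _ => ?_
  simp only [Pi.smul_apply, smul_eq_mul, mul_assoc, ← Finset.mul_sum]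
  ring

lemma scaled_lower {e : (Fin d → ℝ) → ℝ} {c : ℝ} (h : ∀ p ∈ cube d, c * ∑ a, p a ^ 2 ≤ e p)
    {r : ℝ} (hr : 0 < r) {q : Fin d → ℝ} (hq : r⁻¹ • q ∈ cube d) :
    c * ∑ a, q a ^ 2 ≤ r ^ 2 * e (r⁻¹ • q) := by
  have h1 := h _ hq
  simp only [Pi.smul_apply, smul_eq_mul, mul_pow, ← Finset.mul_sum] at h1
  calc c * ∑ a, q a ^ 2 = r ^ 2 * (c * (r⁻¹ ^ 2 * ∑ a, q a ^ 2)) := by field_simp
    _ ≤ _ := by gcongr

lemma DM_posDef {n : ℕ} (hn : 1 ≤ n) {J : (Fin d → ℤ) → ℝ} (hJ : Coup J) : (DM n J).PosDef := by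
  obtain ⟨c, hc, h⟩ := eps_lower hn hJ
  refine PosDef.of_dotProduct_mulVec_pos ?_ fun q hq => ?_
  · ext a b
    simp only [DM, conjTranspose_apply, of_apply, star_trivial]
    congr 2
    funext z
    ring
  · rw [star_trivial]
    refine lt_of_lt_of_le ?_ (ge_of_tendsto (b := c * ∑ a, q a ^ 2) (tendsto_eps n hJ q) ?_)
    · obtain ⟨a, ha⟩ := Function.ne_iff.1 hq
      exact mul_pos hc (Finset.sum_pos' (fun a _ => sq_nonneg _) ⟨a, Finset.mem_univ a,
        pow_pos (abs_pos.2 ha) 2 |>.trans_eq (sq_abs _)⟩)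
    · filter_upwards [eventually_mem_cube q, eventually_gt_atTop 0] with r h1 hr
      exact scaled_lower h hr h1

lemma tendsto_II_sq {n : ℕ} (hn : 1 ≤ n) {J : (Fin d → ℤ) → ℝ} (hJ : Coup J) :
    Tendsto (fun r : ℝ => r ^ d * II (eps n J) (r ^ 2)) atTop
      (𝓝 (√π ^ d / √(DM n J).det / (2 * π) ^ d)) := by
  obtain ⟨c, hc, h⟩ := eps_lower hn hJ
  have he := continuous_eps n hJ
  rw [← integral_gauss_mat (DM_posDef hn hJ), ← integral_div]
  refine (tendsto_integral_filter_of_dominated_convergence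
    (F := fun r q => (cube d).indicator (fun p => exp (-(r ^ 2 * eps n J p)) / (2 * π) ^ d)
      (r⁻¹ • q)) (fun q => exp (-(c * ∑ a, q a ^ 2)) / (2 * π) ^ d) ?_ ?_
    ((integrable_gauss hc).div_const _) ?_).congr' ?_
  · refine Eventually.of_forall fun r => Measurable.aestronglyMeasurable ?_
    exact ((Continuous.measurable (by fun_prop)).indicator (measurableSet_cube d)).comp
      (measurable_const_smul _)
  · filter_upwards [eventually_gt_atTop 0] with r hr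
    refine ae_of_all _ fun q => ?_
    by_cases hq : r⁻¹ • q ∈ cube d
    · rw [Set.indicator_of_mem hq, norm_of_nonneg (by positivity)]
      have := scaled_lower h hr hq
      gcongr
    · rw [Set.indicator_of_notMem hq, norm_zero]; positivity
  · refine ae_of_all _ fun q => ?_
    refine ((((continuous_exp.tendsto _).comp (tendsto_eps n hJ q).neg)).div_const
      ((2 * π) ^ d)).congr' ?_
    filter_upwards [eventually_mem_cube q] with r hq
    rw [Set.indicator_of_mem hq]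
    rfl
  · filter_upwards [eventually_ge_atTop 0] with r hr
    exact (rescale _ hr).symm

lemma sqrt_pow_three {t : ℝ} (ht : 0 ≤ t) : √t ^ 3 = t ^ (3 / 2 : ℝ) := by
  rw [sqrt_eq_rpow, ← rpow_natCast, ← rpow_mul ht]; norm_num

lemma tendsto_II {n : ℕ} (hn : 1 ≤ n) {J : (Fin 3 → ℤ) → ℝ} (hJ : Coup J) :
    Tendsto (fun t : ℝ => t ^ (3 / 2 : ℝ) * II (eps n J) t) atTop
      (𝓝 (1 / (8 * π ^ (3 / 2 : ℝ) * √(DM n J).det))) := by
  have h := (tendsto_II_sq hn hJ).comp tendsto_sqrt_atTop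
  have e : √π ^ 3 / √(DM n J).det / (2 * π) ^ 3 = 1 / (8 * π ^ (3 / 2 : ℝ) * √(DM n J).det) := by
    have h1 : 0 < √π := sqrt_pos.2 pi_pos
    have h2 : 0 < √(DM n J).det := sqrt_pos.2 (DM_posDef hn hJ).det_pos
    rw [← sqrt_pow_three pi_pos.le]
    nth_rewrite 2 [← sq_sqrt pi_pos.le]
    field_simp
    norm_num
  rw [e] at h
  refine h.congr' ?_
  filter_upwards [eventually_ge_atTop 0] with t ht
  simp only [Function.comp, sqrt_pow_three ht, sq_sqrt ht]

lemma hasSum_nInf {n : ℕ} (hn : 1 ≤ n) {J : (Fin 3 → ℤ) → ℝ} (hJ : Coup J) {β : ℝ}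
    (hβ : 0 < β) : HasSum (fun j : ℕ => II (eps n J) ((j + 1) * β)) (nInf n J β 0) := by
  obtain ⟨c, hc, h⟩ := eps_lower hn hJ
  simpa only [nInf, add_zero] using hasSum_II (continuous_eps n hJ) hc h hβ

theorem asy1 : Asy1Stmt := by
  intro n J hn hJ
  have h := tendsto_zeta hasSum_zeta3 (tendsto_II hn hJ)
  rw [mul_one_div] at h
  refine h.congr' ?_
  filter_upwards [eventually_gt_atTop 0] with β hβ
  rw [← ((hasSum_nInf hn hJ hβ).mul_left _).tsum_eq]
  refine tsum_congr fun j => ?_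
  have hj : (0 : ℝ) < j + 1 := by positivity
  rw [mul_rpow hj.le hβ.le, rpow_neg hj.le]
  have := rpow_pos_of_pos hj (3 / 2)
  field_simp

end Crest.Agent.N337.Asy
end

-- ▼ part N337/Asy/Two
section

/-!
# Row 337: `asy2 : Asy2Stmt` (helper37)
-/

set_option autoImplicit false

namespace Crest.Agent.N337.Asy

open Crest.MathPhysics.SpinModel Filter Topology MeasureTheory Real

lemma cos_bound4 {x : ℝ} (hx : |x| ≤ 1) :
    |cos x - (1 - x ^ 2 / 2 + x ^ 4 / 24)| ≤ |x| ^ 5 * (1 / 100) := by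
  have h := Complex.exp_bound (x := x * Complex.I) (by simpa using hx) (n := 5) (by norm_num)
  have h1 := (Complex.abs_re_le_norm _).trans h
  have h2 : (∑ m ∈ Finset.range 5, ((x : ℂ) * Complex.I) ^ m / (m.factorial : ℂ)) =
      ((1 - x ^ 2 / 2 + x ^ 4 / 24 : ℝ) : ℂ) + ((x - x ^ 3 / 6 : ℝ) : ℂ) * Complex.I := by
    simp only [Finset.sum_range_succ, Finset.sum_range_zero, Nat.factorial, mul_pow]
    push_cast
    simp only [Complex.I_sq, Complex.I_pow_three]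
    ring
  rw [h2, Complex.sub_re, Complex.exp_ofReal_mul_I_re, Complex.add_re, Complex.ofReal_re,
    Complex.re_ofReal_mul, Complex.I_re, mul_zero, add_zero, norm_mul, Complex.norm_I, mul_one,
    Complex.norm_real, norm_eq_abs] at h1
  refine h1.trans (le_of_eq ?_)
  norm_num [Nat.factorial]

lemma tendsto_quartic (q : ℝ) : Tendsto (fun r : ℝ =>
    r ^ 2 * (q ^ 2 - 2 * r ^ 2 * (1 - cos (r⁻¹ * q)))) atTop (𝓝 (q ^ 4 / 12)) := by
  rw [tendsto_iff_norm_sub_tendsto_zero]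
  have h := (tendsto_inv_atTop_zero (𝕜 := ℝ)).const_mul (|q| ^ 5 * (1 / 50))
  rw [mul_zero] at h
  refine squeeze_zero' (Eventually.of_forall fun _ => norm_nonneg _) ?_ h
  filter_upwards [eventually_abs_le q one_pos, eventually_gt_atTop 0] with r h1 hr
  have h2 := cos_bound4 h1
  have h3 : r ^ 2 * (q ^ 2 - 2 * r ^ 2 * (1 - cos (r⁻¹ * q))) - q ^ 4 / 12 =
      2 * r ^ 4 * (cos (r⁻¹ * q) - (1 - (r⁻¹ * q) ^ 2 / 2 + (r⁻¹ * q) ^ 4 / 24)) := by
    field_simp; ring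
  rw [h3, norm_mul, norm_of_nonneg (by positivity), norm_eq_abs]
  calc _ ≤ 2 * r ^ 4 * (|r⁻¹ * q| ^ 5 * (1 / 100)) := by gcongr
    _ = _ := by
      rw [abs_mul, abs_of_pos (inv_pos.2 hr)]
      field_simp
      ring

lemma defect_nonneg (x : ℝ) : 0 ≤ x ^ 2 - 2 * (1 - cos x) := by
  have := one_sub_sq_div_two_le_cos (x := x)
  linarith

lemma defect_le (x : ℝ) : x ^ 2 - 2 * (1 - cos x) ≤ x ^ 4 := by
  by_cases hx : |x| ≤ 1
  · have h := (abs_le.1 (cos_bound hx)).2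
    rw [show |x| ^ 4 = x ^ 4 from Even.pow_abs (by decide) _] at h
    have : 0 ≤ x ^ 4 := by positivity
    linarith
  · have h1 : 1 ≤ x ^ 2 := by rw [← sq_abs]; exact one_le_pow₀ (not_le.1 hx).le
    have h2 := cos_le_one x
    nlinarith

lemma exp_sub_exp_ge (a b : ℝ) : (b - a) * exp (-b) ≤ exp (-a) - exp (-b) := by
  have h1 : exp (-a) = exp (b - a) * exp (-b) := by rw [← exp_add]; congr 1; ring
  have h2 := mul_le_mul_of_nonneg_right (add_one_le_exp (b - a)) (exp_pos (-b)).le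
  linarith

lemma exp_sub_exp_le (a b : ℝ) : exp (-a) - exp (-b) ≤ (b - a) * exp (-a) := by
  have := exp_sub_exp_ge b a
  linarith

lemma integrable_pow_gauss {b : ℝ} (hb : 0 < b) (k : ℕ) :
    Integrable fun x : ℝ => x ^ k * exp (-b * x ^ 2) := by
  have := integrable_rpow_mul_exp_neg_mul_sq hb (s := k) (by
    have : (0 : ℝ) ≤ k := Nat.cast_nonneg k
    linarith)
  simpa only [rpow_natCast] using this

lemma integral_quartic_gauss : ∫ q : ℝ, q ^ 4 / 12 * exp (-q ^ 2) = √π / 16 := by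
  have h1 := integral_comp_abs (f := fun x : ℝ => x ^ 4 / 12 * exp (-x ^ 2))
  simp only [sq_abs, show ∀ x : ℝ, |x| ^ 4 = x ^ 4 from fun x => Even.pow_abs (by decide) _] at h1
  have h2 := integral_rpow_mul_exp_neg_rpow (p := 2) (q := 4) two_pos (by norm_num)
  have h3 : Gamma ((4 + 1) / 2) = 3 / 4 * √π := by
    rw [show ((4 + 1) / 2 : ℝ) = (1 / 2 + 1) + 1 by norm_num, Gamma_add_one (by norm_num),
      Gamma_add_one (by norm_num), Gamma_one_half_eq]
    ring
  have h4 : ∫ x in Set.Ioi (0 : ℝ), x ^ 4 / 12 * exp (-x ^ 2) =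
      (∫ x in Set.Ioi (0 : ℝ), x ^ (4 : ℝ) * exp (-x ^ (2 : ℝ))) / 12 := by
    rw [← integral_div]
    refine integral_congr_ae (ae_of_all _ fun x => ?_)
    simp only [rpow_ofNat]
    ring
  rw [h1, h4, h2, h3]
  ring

/-- the one-dimensional factor -/
noncomputable def psi (s : ℝ) : ℝ := ∫ k in Set.Icc (-π) π, exp (-(2 * s * (1 - cos k)))

lemma tendsto_psi_sq :
    Tendsto (fun r : ℝ => r ^ 2 * (r * psi (r ^ 2) - √π)) atTop (𝓝 (√π / 16)) := by
  have hb : (0 : ℝ) < 4 / π ^ 2 := by positivity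
  have hπ : (4 : ℝ) ≤ π ^ 2 := by nlinarith [pi_gt_three]
  rw [← integral_quartic_gauss]
  refine (tendsto_integral_filter_of_dominated_convergence
    (F := fun r q => r ^ 2 * ((Set.Icc (-π) π).indicator
      (fun k => exp (-(2 * r ^ 2 * (1 - cos k)))) (r⁻¹ * q) - exp (-q ^ 2)))
    (fun q => q ^ 4 * exp (-(4 / π ^ 2) * q ^ 2) + q ^ 2 * exp (-(4 / π ^ 2) * q ^ 2)) ?_ ?_
    ((integrable_pow_gauss hb 4).add (integrable_pow_gauss hb 2)) ?_).congr' ?_
  · refine Eventually.of_forall fun r => Measurable.aestronglyMeasurable ?_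
    refine Measurable.const_mul (Measurable.sub ?_ (by fun_prop)) _
    exact ((Continuous.measurable (by fun_prop)).indicator measurableSet_Icc).comp
      (measurable_const_mul _)
  · filter_upwards [eventually_gt_atTop 0] with r hr
    refine ae_of_all _ fun q => ?_
    have p1 : 0 ≤ q ^ 4 * exp (-(4 / π ^ 2) * q ^ 2) := by positivity
    have p2 : 0 ≤ q ^ 2 * exp (-(4 / π ^ 2) * q ^ 2) := by positivity
    by_cases hq : r⁻¹ * q ∈ Set.Icc (-π) π
    · rw [Set.indicator_of_mem hq]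
      have e1 : q ^ 2 - 2 * r ^ 2 * (1 - cos (r⁻¹ * q)) =
          r ^ 2 * ((r⁻¹ * q) ^ 2 - 2 * (1 - cos (r⁻¹ * q))) := by field_simp
      have h1 := exp_sub_exp_ge (2 * r ^ 2 * (1 - cos (r⁻¹ * q))) (q ^ 2)
      have h2 := exp_sub_exp_le (2 * r ^ 2 * (1 - cos (r⁻¹ * q))) (q ^ 2)
      rw [e1] at h1 h2
      have h3 := defect_nonneg (r⁻¹ * q)
      have h4 := defect_le (r⁻¹ * q)
      rw [norm_of_nonneg (mul_nonneg (sq_nonneg r) (le_trans (by positivity) h1))]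
      have h5 : 4 / π ^ 2 * q ^ 2 ≤ 2 * r ^ 2 * (1 - cos (r⁻¹ * q)) := by
        have h6 := cos_le_one_sub_mul_cos_sq (abs_le.2 hq)
        calc 4 / π ^ 2 * q ^ 2 = 2 * r ^ 2 * (2 / π ^ 2 * (r⁻¹ * q) ^ 2) := by field_simp; ring
          _ ≤ _ := by gcongr; linarith
      calc _ ≤ r ^ 2 * (r ^ 2 * (r⁻¹ * q) ^ 4 * exp (-(4 / π ^ 2 * q ^ 2))) := by
            gcongr
            refine h2.trans ?_
            gcongr
        _ = q ^ 4 * exp (-(4 / π ^ 2) * q ^ 2) := by rw [neg_mul]; field_simp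
        _ ≤ _ := by linarith
    · rw [Set.indicator_of_notMem hq, zero_sub, mul_neg, norm_neg, norm_of_nonneg (by positivity)]
      have h1 : 1 ≤ |r⁻¹ * q| := by
        have := not_le.1 (mt abs_le.1 hq)
        linarith [pi_gt_three]
      have h2 : r ^ 2 ≤ q ^ 2 := by
        rw [abs_mul, abs_of_pos (inv_pos.2 hr), le_inv_mul_iff₀ hr, mul_one] at h1
        rw [← sq_abs q]; gcongr
      have h3 : 4 / π ^ 2 * q ^ 2 ≤ q ^ 2 :=
        mul_le_of_le_one_left (sq_nonneg q) ((div_le_one (by positivity)).2 hπ)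
      calc _ ≤ q ^ 2 * exp (-(4 / π ^ 2 * q ^ 2)) := by gcongr
        _ ≤ _ := by rw [← neg_mul]; linarith
  · refine ae_of_all _ fun q => ?_
    have hA : Tendsto (fun r : ℝ => 2 * r ^ 2 * (1 - cos (r⁻¹ * q))) atTop (𝓝 (q ^ 2)) := by
      have := (tendsto_sq_one_sub_cos q).const_mul 2
      rw [mul_div_cancel₀ _ two_ne_zero] at this
      simpa only [mul_assoc] using this
    refine tendsto_of_tendsto_of_tendsto_of_le_of_le' ((tendsto_quartic q).mul_const _)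
      ((tendsto_quartic q).mul ((continuous_exp.tendsto _).comp hA.neg)) ?_ ?_
    · filter_upwards [eventually_abs_le q pi_pos] with r hq
      rw [Set.indicator_of_mem (Set.mem_Icc.2 (abs_le.1 hq)), mul_assoc (r ^ 2)]
      exact mul_le_mul_of_nonneg_left (exp_sub_exp_ge _ _) (sq_nonneg r)
    · filter_upwards [eventually_abs_le q pi_pos] with r hq
      rw [Set.indicator_of_mem (Set.mem_Icc.2 (abs_le.1 hq)), mul_assoc (r ^ 2)]
      exact mul_le_mul_of_nonneg_left (exp_sub_exp_le _ _) (sq_nonneg r)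
  · filter_upwards [eventually_gt_atTop 0] with r hr
    have h1 : Integrable ((Set.Icc (-π) π).indicator fun k => exp (-(2 * r ^ 2 * (1 - cos k)))) :=
      (Continuous.integrableOn_Icc (by fun_prop)).integrable_indicator measurableSet_Icc
    have h2 : Integrable fun q : ℝ => exp (-q ^ 2) := by
      simpa using integrable_exp_neg_mul_sq one_pos
    have h3 : ∫ q : ℝ, exp (-q ^ 2) = √π := by simpa using integral_gaussian 1
    rw [integral_const_mul, integral_sub (h1.comp_mul_left' (inv_ne_zero hr.ne')) h2,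
      Measure.integral_comp_inv_mul_left, integral_indicator measurableSet_Icc, h3,
      abs_of_pos hr, smul_eq_mul, psi]

lemma II_nn (n : ℕ) (t : ℝ) :
    II (magnonEnergy 3 n) t = psi (t * spinVal n) ^ 3 / (2 * π) ^ 3 := by
  have h := integral_fintype_prod_eq_pow (ι := Fin 3) (μ := volume.restrict (Set.Icc (-π) π))
    fun k => exp (-(2 * (t * spinVal n) * (1 - cos k)))
  rw [Fintype.card_fin] at h
  rw [II, integral_div, cube, volume_pi, Measure.restrict_pi_pi, psi, ← h]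
  congr 2
  funext p
  rw [← exp_sum, magnonEnergy, Finset.sum_neg_distrib, ← Finset.mul_sum]
  congr 2
  ring

/-- the remainder of the two-term expansion -/
noncomputable def rem (s : ℝ) : ℝ := s ^ (5 / 2 : ℝ) * (psi s ^ 3 / (2 * π) ^ 3 -
  1 / (8 * π ^ (3 / 2 : ℝ)) * s ^ (-(3 / 2 : ℝ)) - 3 / (128 * π ^ (3 / 2 : ℝ)) * s ^ (-(5 / 2 : ℝ)))

lemma sqrt_pow_five {t : ℝ} (ht : 0 ≤ t) : √t ^ 5 = t ^ (5 / 2 : ℝ) := by
  rw [sqrt_eq_rpow, ← rpow_natCast, ← rpow_mul ht]; norm_num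

lemma tendsto_rem : Tendsto rem atTop (𝓝 0) := by
  have h1 := tendsto_psi_sq
  have h2 : Tendsto (fun r : ℝ => r * psi (r ^ 2)) atTop (𝓝 √π) := by
    have h3 := (h1.mul ((tendsto_inv_atTop_zero (𝕜 := ℝ)).pow 2)).add_const √π
    rw [zero_pow two_ne_zero, mul_zero, zero_add] at h3
    refine h3.congr' ?_
    filter_upwards [eventually_gt_atTop 0] with r hr
    field_simp
    ring
  have h4 := (((h1.mul (((h2.pow 2).add (h2.mul_const √π)).add_const (√π ^ 2))).sub_const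
    (3 / 16 * √π ^ 3)).div_const ((2 * π) ^ 3)).comp tendsto_sqrt_atTop
  rw [show (√π / 16 * (√π ^ 2 + √π * √π + √π ^ 2) - 3 / 16 * √π ^ 3) / (2 * π) ^ 3 = 0 by
    ring] at h4
  refine h4.congr' ?_
  filter_upwards [eventually_gt_atTop 0] with s hs
  have hr : 0 < √s := sqrt_pos.2 hs
  have hp : 0 < √π := sqrt_pos.2 pi_pos
  simp only [Function.comp, rem, rpow_neg hs.le, ← sqrt_pow_three hs.le, ← sqrt_pow_five hs.le,
    ← sqrt_pow_three pi_pos.le]
  rw [show psi (√s ^ 2) = psi s by rw [sq_sqrt hs.le]]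
  generalize psi s = y
  generalize √s = r at hr
  have hπ := sq_sqrt pi_pos.le
  generalize √π = w at hp hπ
  rw [← hπ]
  field_simp
  ring

theorem asy2 : Asy2Stmt := by
  intro n hn
  have hS := spinVal_pos hn
  have h := (tendsto_zeta hasSum_zeta5 tendsto_rem).comp (tendsto_id.atTop_mul_const hS)
  rw [mul_zero] at h
  refine h.congr' ?_
  filter_upwards [eventually_gt_atTop 0] with β hβ
  have hx : 0 < β * spinVal n := mul_pos hβ hS
  have h1 := hasSum_nInf hn (coup_nn 3) hβ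
  rw [nInf_nn, funext (eps_nn 3 n)] at h1
  have h2 := (((h1.sub (hasSum_zeta3.mul_right
    (1 / (8 * π ^ (3 / 2 : ℝ)) * (β * spinVal n) ^ (-(3 / 2 : ℝ))))).sub (hasSum_zeta5.mul_right
    (3 / (128 * π ^ (3 / 2 : ℝ)) * (β * spinVal n) ^ (-(5 / 2 : ℝ))))).mul_left
    ((β * spinVal n) ^ (5 / 2 : ℝ))).tsum_eq
  refine Eq.trans (Eq.trans (tsum_congr fun j => ?_) h2) (by ring)
  have hj : (0 : ℝ) < j + 1 := by positivity
  have hj' := rpow_pos_of_pos hj (5 / 2)
  simp only [id, rem, II_nn, mul_assoc ((j : ℝ) + 1), mul_rpow hj.le hx.le]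
  rw [← mul_assoc, ← mul_assoc, ← rpow_add hj, neg_add_cancel, rpow_zero]
  ring

end Crest.Agent.N337.Asy
end

-- ▼ part N337/Asy/Main

/-!
# Row 337: the bodies of S0524, S0525, S0526 from `ThermoStmt` and `SandStmt` (helper37)
-/

set_option autoImplicit false

namespace Crest.Agent.N337.Asy

open Crest.MathPhysics.SpinModel Filter Topology Real

lemma tendsto_eta : Tendsto (fun β : ℝ => β ^ (-(5 / 4 : ℝ))) atTop (𝓝 0) :=
  tendsto_rpow_neg_atTop (by norm_num)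

lemma tendsto_one_add : Tendsto (fun β : ℝ => 1 + β ^ (-(5 / 4 : ℝ))) atTop (𝓝 1) := by
  simpa using tendsto_eta.const_add 1

lemma tendsto_one_sub : Tendsto (fun β : ℝ => 1 - β ^ (-(5 / 4 : ℝ))) atTop (𝓝 1) := by
  simpa using tendsto_eta.const_sub 1

lemma tendsto_rpow_one {u : ℝ → ℝ} (hu : Tendsto u atTop (𝓝 1)) (α : ℝ) :
    Tendsto (fun β => u β ^ α) atTop (𝓝 1) := by
  simpa using hu.rpow_const (p := α) (Or.inl one_ne_zero)

lemma tendsto_mul_sub_one {f : ℝ → ℝ} (hf : DifferentiableAt ℝ f 0) (h0 : f 0 = 1) :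
    Tendsto (fun β : ℝ => β * (f (β ^ (-(5 / 4 : ℝ))) - 1)) atTop (𝓝 0) := by
  have h1 := (Asymptotics.isBigO_refl (fun β : ℝ => β) atTop).mul
    (hf.isBigO_sub.comp_tendsto tendsto_eta)
  rw [← h0]
  refine h1.trans_tendsto ((tendsto_rpow_neg_atTop (y := 1 / 4) (by norm_num)).congr' ?_)
  filter_upwards [eventually_gt_atTop 0] with β hβ
  simp only [Function.comp, sub_zero]
  nth_rewrite 2 [← rpow_one β]
  rw [← rpow_add hβ]
  norm_num

lemma lead_shift {N u : ℝ → ℝ} {L : ℝ} (hu : Tendsto u atTop (𝓝 1))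
    (h : Tendsto (fun β : ℝ => β ^ (3 / 2 : ℝ) * N β) atTop (𝓝 L)) :
    Tendsto (fun β : ℝ => β ^ (3 / 2 : ℝ) * N (β * u β)) atTop (𝓝 L) := by
  have h1 := (tendsto_rpow_one hu (-(3 / 2))).mul (h.comp (tendsto_id.atTop_mul_pos one_pos hu))
  rw [one_mul] at h1
  refine h1.congr' ?_
  filter_upwards [eventually_gt_atTop 0, hu.eventually_const_lt one_pos] with β hβ hu0
  simp only [Function.comp, id]
  rw [mul_rpow hβ.le hu0.le, rpow_neg hu0.le]
  have := rpow_pos_of_pos hu0 (3 / 2)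
  field_simp

lemma two_shift {N u w : ℝ → ℝ} {a b S : ℝ} (hS : 0 < S) (hu : Tendsto u atTop (𝓝 1))
    (hw : Tendsto w atTop (𝓝 1))
    (huw : Tendsto (fun β => β * (w β * u β ^ (-(3 / 2 : ℝ)) - 1)) atTop (𝓝 0))
    (h : Tendsto (fun β : ℝ => (β * S) ^ (5 / 2 : ℝ) * (N β - a * (β * S) ^ (-(3 / 2 : ℝ)) -
      b * (β * S) ^ (-(5 / 2 : ℝ)))) atTop (𝓝 0)) :
    Tendsto (fun β : ℝ => (β * S) ^ (5 / 2 : ℝ) * (w β * N (β * u β) -
      a * (β * S) ^ (-(3 / 2 : ℝ)) - b * (β * S) ^ (-(5 / 2 : ℝ)))) atTop (𝓝 0) := by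
  have h0 := hw.mul (tendsto_rpow_one hu (-(5 / 2)))
  have h1 := ((h0.mul (h.comp (tendsto_id.atTop_mul_pos one_pos hu))).add
    (huw.const_mul (a * S))).add ((h0.sub_const 1).const_mul b)
  simp only [mul_zero, mul_one, sub_self, add_zero] at h1
  refine h1.congr' ?_
  filter_upwards [eventually_gt_atTop 0, hu.eventually_const_lt one_pos] with β hβ hu0
  have hx : 0 < β * S := mul_pos hβ hS
  simp only [Function.comp, id]
  rw [mul_right_comm β (u β) S]
  simp only [mul_rpow hx.le hu0.le, rpow_neg hu0.le, rpow_neg hx.le, ← sqrt_pow_three hu0.le,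
    ← sqrt_pow_three hx.le, ← sqrt_pow_five hu0.le, ← sqrt_pow_five hx.le]
  have e : β = √(β * S) ^ 2 / S := by rw [sq_sqrt hx.le]; field_simp
  have p1 := sqrt_pos.2 hx
  have p2 := sqrt_pos.2 hu0
  generalize N (β * u β) = y
  generalize √(β * S) = r at e p1
  generalize √(u β) = v at p2
  generalize w β = z
  rw [e]
  field_simp
  ring

theorem s0524_of (hT : ThermoStmt) (hS : SandStmt) (twoS : ℕ) (hn : 1 ≤ twoS)
    (J : (Fin 3 → ℤ) → ℝ) (hJ0 : J 0 = 0) (hJsymm : ∀ z, J (-z) = J z) (hJpos : ∀ z, 0 ≤ J z)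
    (hJfin : (Function.support J).Finite) (hJgen : AddSubgroup.closure (Function.support J) = ⊤) :
    ∃ (p : ℝ → ℝ → ℝ) (m : ℝ → ℝ), IsPressure 3 twoS J p ∧ IsMagnetization p m ∧
      Tendsto (fun β : ℝ => β ^ (3 / 2 : ℝ) * (spinVal twoS - m β)) atTop
        (𝓝 ((riemannZeta (3 / 2)).re / (8 * Real.pi ^ (3 / 2 : ℝ) *
          Real.sqrt (Matrix.det (Matrix.of fun a b : Fin 3 =>
            spinVal twoS / 2 * ∑ᶠ z : Fin 3 → ℤ, J z * ((z a : ℝ) * (z b : ℝ))))))) := by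
  have hJ : Coup J := ⟨hJ0, hJsymm, hJpos, hJfin, hJgen⟩
  obtain ⟨p, m, hp, hm, -⟩ := hT 3 twoS J (by norm_num) hn hJ
  obtain ⟨β0, -, hβ0⟩ := hS 3 twoS J le_rfl hn hJ p m hp hm
  have h := asy1 twoS J hn hJ
  have h1 := tendsto_one_sub.mul (lead_shift tendsto_one_add h)
  have h2 := (lead_shift tendsto_one_sub h).add tendsto_eta
  rw [one_mul] at h1
  rw [add_zero] at h2
  refine ⟨p, m, hp, hm, tendsto_of_tendsto_of_tendsto_of_le_of_le' h1 h2 ?_ ?_⟩
  · filter_upwards [eventually_ge_atTop β0, eventually_gt_atTop 0] with β hβ h0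
    rw [mul_left_comm]
    exact mul_le_mul_of_nonneg_left (hβ0 β hβ).2.1 (by positivity)
  · filter_upwards [eventually_ge_atTop β0, eventually_gt_atTop 0] with β hβ h0
    refine (mul_le_mul_of_nonneg_left (hβ0 β hβ).2.2 (by positivity)).trans (le_of_eq ?_)
    rw [mul_add, ← rpow_add h0]
    norm_num

theorem s0525_of (hT : ThermoStmt) (hS : SandStmt) (twoS : ℕ) (hn : 1 ≤ twoS) :
    ∃ (p : ℝ → ℝ → ℝ) (m : ℝ → ℝ), IsPressure 3 twoS (nnCoupling 3) p ∧ IsMagnetization p m ∧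
      Tendsto (fun β : ℝ => (β * spinVal twoS) ^ (5 / 2 : ℝ) *
          (spinVal twoS - m β
            - (riemannZeta (3 / 2)).re / (8 * Real.pi ^ (3 / 2 : ℝ)) *
              (β * spinVal twoS) ^ (-(3 / 2 : ℝ))
            - 3 * (riemannZeta (5 / 2)).re / (128 * Real.pi ^ (3 / 2 : ℝ)) *
              (β * spinVal twoS) ^ (-(5 / 2 : ℝ))))
        atTop (𝓝 0) := by
  have hJ := coup_nn 3
  have hs := spinVal_pos hn
  obtain ⟨p, m, hp, hm, -⟩ := hT 3 twoS _ (by norm_num) hn hJ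
  obtain ⟨β0, -, hβ0⟩ := hS 3 twoS _ le_rfl hn hJ p m hp hm
  simp only [nInf_nn] at hβ0
  have h := asy2 twoS hn
  have h1 := two_shift hs tendsto_one_add tendsto_one_sub
    (tendsto_mul_sub_one (f := fun η => (1 - η) * (1 + η) ^ (-(3 / 2 : ℝ)))
      (DifferentiableAt.mul (by fun_prop) (DifferentiableAt.rpow_const (by fun_prop) (by simp)))
      (by simp)) h
  have h2 := (two_shift (w := fun _ => 1) hs tendsto_one_sub tendsto_const_nhds
    (tendsto_mul_sub_one (f := fun η => 1 * (1 - η) ^ (-(3 / 2 : ℝ)))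
      (DifferentiableAt.mul (by fun_prop) (DifferentiableAt.rpow_const (by fun_prop) (by simp)))
      (by simp)) h).add ((tendsto_rpow_neg_atTop (y := 1 / 4) (by norm_num)).const_mul
        (spinVal twoS ^ (5 / 2 : ℝ)))
  rw [mul_zero, add_zero] at h2
  refine ⟨p, m, hp, hm, tendsto_of_tendsto_of_tendsto_of_le_of_le' h1 h2 ?_ ?_⟩
  · filter_upwards [eventually_ge_atTop β0, eventually_gt_atTop 0] with β hβ h0
    have := (hβ0 β hβ).2.1
    gcongr
  · filter_upwards [eventually_ge_atTop β0, eventually_gt_atTop 0] with β hβ h0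
    have h3 := (hβ0 β hβ).2.2
    have h4 : spinVal twoS ^ (5 / 2 : ℝ) * β ^ (-(1 / 4 : ℝ)) =
        (β * spinVal twoS) ^ (5 / 2 : ℝ) * β ^ (-(11 / 4 : ℝ)) := by
      rw [mul_rpow h0.le hs.le, mul_right_comm, ← rpow_add h0, mul_comm]
      norm_num
    rw [h4, ← mul_add]
    gcongr
    linarith

theorem s0526_of (hT : ThermoStmt) (hS : SandStmt) (twoS : ℕ) (hn : 1 ≤ twoS) :
    ∃ (p : ℝ → ℝ → ℝ) (m : ℝ → ℝ), IsPressure 3 twoS (nnCoupling 3) p ∧ IsMagnetization p m ∧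
      Tendsto (fun β : ℝ => (β * spinVal twoS) ^ (5 / 2 : ℝ) *
          (spinVal twoS - m β - idealMagnonDensity 3 twoS β)) atTop (𝓝 0) := by
  obtain ⟨p, m, hp, hm, h⟩ := s0525_of hT hS twoS hn
  refine ⟨p, m, hp, hm, ?_⟩
  have h1 := h.sub (asy2 twoS hn)
  rw [sub_zero] at h1
  exact h1.congr fun β => by ring

end Crest.Agent.N337.Asy
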